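import Vale.Agent.P327.H390.Cone

/-!
From isomorphisms between cones of reals to isomorphisms between final segments of the Turing
degrees.
-/

namespace Vale.Agent.P327

theorem le_dg_jn (A X : Om) : dg (jn A X) ∈ Set.Ici (dg A) :=
  (dg_le_iff _ _).2 (red_jn_left _ _)

/-- The image under `e` of the degree of `A ⊕ X`. -/
noncomputable def imgDeg (A B : Om) (e : Set.Ici (dg A) ≃o Set.Ici (dg B)) (X : Om) : TDeg :=
  (e ⟨dg (jn A X), le_dg_jn A X⟩ : TDeg)

/-- A real representing `imgDeg`. -/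
noncomputable def img (A B : Om) (e : Set.Ici (dg A) ≃o Set.Ici (dg B)) (X : Om) : Om :=
  (dg_surj (imgDeg A B e X)).choose

theorem dg_img (A B : Om) (e : Set.Ici (dg A) ≃o Set.Ici (dg B)) (X : Om) :
    dg (img A B e X) = (e ⟨dg (jn A X), le_dg_jn A X⟩ : TDeg) :=
  (dg_surj (imgDeg A B e X)).choose_spec

theorem img_ge (A B : Om) (e : Set.Ici (dg A) ≃o Set.Ici (dg B)) (X : Om) :
    Red B (img A B e X) := by
  rw [← dg_le_iff, dg_img]
  exact (e ⟨dg (jn A X), le_dg_jn A X⟩).2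

theorem img_red (A B : Om) (e : Set.Ici (dg A) ≃o Set.Ici (dg B)) (X Y : Om) :
    Red (jn A X) (jn A Y) ↔ Red (img A B e X) (img A B e Y) := by
  rw [← dg_le_iff, ← dg_le_iff, dg_img, dg_img, Subtype.coe_le_coe, e.le_iff_le, Subtype.mk_le_mk]

theorem img_img (A B : Om) (e : Set.Ici (dg A) ≃o Set.Ici (dg B)) (X : Om) :
    Eqv (img A B e (img B A e.symm X)) (jn B X) := by
  rw [← dg_eq_iff, dg_img]
  have h1 : (⟨dg (jn A (img B A e.symm X)), le_dg_jn A _⟩ : Set.Ici (dg A)) =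
      e.symm ⟨dg (jn B X), le_dg_jn B X⟩ := by
    apply Subtype.ext
    rw [← dg_img]
    exact (dg_eq_iff _ _).2 ⟨jn_red (img_ge B A e.symm X) (Red.refl _), red_jn_right _ _⟩
  rw [h1, e.apply_symm_apply]

/-- Present an isomorphism between cones by functions on reals. -/
noncomputable def toCIso (A B : Om) (e : Set.Ici (dg A) ≃o Set.Ici (dg B)) : CIso A B where
  f := img A B e
  g := img B A e.symm
  f_ge := img_ge A B e
  g_ge := img_ge B A e.symm
  f_red := img_red A B e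
  g_red := img_red B A e.symm
  fg := img_img A B e
  gf := img_img B A e.symm

/-- Half of the rigidity of cones, on reals. -/
theorem img_le (A B : Om) (e : Set.Ici (dg A) ≃o Set.Ici (dg B)) (X : Om) :
    Red (img A B e X) (jn B X) :=
  (toCIso B A e.symm).g_red_self X

/-- The base points of isomorphic cones agree. -/
theorem base_le (A B : Om) (e : Set.Ici (dg A) ≃o Set.Ici (dg B)) : Red B A := by
  -- the image of the degree of `A ⊕ B` is below `B`, hence equal to the least element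
  have h1 : Red (img A B e B) B := (img_le A B e B).trans (jn_red (Red.refl _) (Red.refl _))
  have h2 : e ⟨dg (jn A B), le_dg_jn A B⟩ = ⟨dg B, Set.mem_Ici.2 le_rfl⟩ := by
    apply Subtype.ext
    rw [← dg_img]
    exact (dg_eq_iff _ _).2 ⟨h1, img_ge A B e B⟩
  have h3 : e ⟨dg (jn A B), le_dg_jn A B⟩ ≤ e ⟨dg A, Set.mem_Ici.2 le_rfl⟩ := by
    rw [h2]
    exact (e ⟨dg A, Set.mem_Ici.2 le_rfl⟩).2
  have h4 : dg (jn A B) ≤ dg A := Subtype.mk_le_mk.1 (e.le_iff_le.1 h3)
  exact (red_jn_right A B).trans ((dg_le_iff _ _).1 h4)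

/-- Every isomorphism between cones of the Turing degrees fixes all degrees. -/
theorem cone_rigid (a b : TDeg) (e : Set.Ici a ≃o Set.Ici b) :
    a = b ∧ ∀ x : Set.Ici a, (e x : TDeg) = x := by
  obtain ⟨A, rfl⟩ := dg_surj a
  obtain ⟨B, rfl⟩ := dg_surj b
  have hBA : Red B A := base_le A B e
  have hAB : Red A B := base_le B A e.symm
  have key : ∀ (A B : Om) (e : Set.Ici (dg A) ≃o Set.Ici (dg B)) (_ : Red B A)
      (x : Set.Ici (dg A)), (e x : TDeg) ≤ x := by
    intro A B e hBA x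
    obtain ⟨X, hX⟩ := dg_surj (x : TDeg)
    have hAX : Red A X := by rw [← dg_le_iff, hX]; exact x.2
    have hx : x = ⟨dg (jn A X), le_dg_jn A X⟩ := by
      apply Subtype.ext
      rw [← hX]
      exact (dg_eq_iff _ _).2 ⟨red_jn_right _ _, jn_red hAX (Red.refl _)⟩
    have h1 := img_le A B e X
    rw [← dg_le_iff, dg_img, ← hx] at h1
    refine h1.trans ?_
    rw [← hX, dg_le_iff]
    exact jn_red (hBA.trans hAX) (Red.refl _)
  refine ⟨(dg_eq_iff _ _).2 ⟨hAB, hBA⟩, fun x => le_antisymm (key A B e hBA x) ?_⟩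
  have h := key B A e.symm hAB (e x)
  rwa [e.symm_apply_apply] at h

/-- The restriction of an isomorphism between final segments to a cone. -/
def coneRestrict {U V : Set TDeg} (hU : IsUpperSet U) (hV : IsUpperSet V) (e : U ≃o V) (u : U) :
    Set.Ici (u : TDeg) ≃o Set.Ici (e u : TDeg) where
  toFun x := ⟨(e ⟨x, hU x.2 u.2⟩ : TDeg), e.monotone (Subtype.coe_le_coe.1 x.2)⟩
  invFun y := ⟨(e.symm ⟨y, hV y.2 (e u).2⟩ : TDeg), by
    have h : e.symm (e u) ≤ e.symm ⟨y, hV y.2 (e u).2⟩ :=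
      e.symm.monotone (Subtype.coe_le_coe.1 y.2)
    rw [e.symm_apply_apply] at h
    exact h⟩
  left_inv x := by
    apply Subtype.ext
    simp
  right_inv y := by
    apply Subtype.ext
    simp
  map_rel_iff' {x y} := by
    change e ⟨x, hU x.2 u.2⟩ ≤ e ⟨y, hU y.2 u.2⟩ ↔ x ≤ y
    rw [e.le_iff_le]
    exact Iff.rfl

/-- Every isomorphism between final segments of the Turing degrees fixes all degrees. -/
theorem upper_rigid {U V : Set TDeg} (hU : IsUpperSet U) (hV : IsUpperSet V) (e : U ≃o V) :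
    U = V ∧ ∀ x : U, (e x : TDeg) = x := by
  have h : ∀ x : U, (e x : TDeg) = x := fun x => ((cone_rigid _ _ (coneRestrict hU hV e x)).1).symm
  refine ⟨Set.Subset.antisymm (fun x hx => ?_) (fun y hy => ?_), h⟩
  · have h1 : (e ⟨x, hx⟩ : TDeg) = x := h ⟨x, hx⟩
    rw [← h1]; exact (e ⟨x, hx⟩).2
  · have h1 := h (e.symm ⟨y, hy⟩)
    rw [e.apply_symm_apply] at h1
    change y = _ at h1
    rw [h1]; exact (e.symm ⟨y, hy⟩).2

end Vale.Agent.P327
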